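import Crest.Agent.X277.Link.DvA
import Crest.Agent.X277.Cns.Mk
import Crest.Agent.X277.AN.G1Gaga

/-!
# Row 262, FORM (helper88), part 1: images of morphisms and purity

* `res_ne`, `res_pat`, `res_not_le` : properties of general points (`residual`);
* `range_map` : the image of a morphism is the set of points whose ring lies in the place;
* `exists_all`  : an irreducible image lies in one of finitely many closed sets;
* `lp_le_of_pd` : van der Waerden's purity; `finite_exc`;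
* `dichotomy`   : two morphisms to `W` which agree on `Y` agree or land in an exceptional prime.
-/

set_option autoImplicit false

open Set Filter Topology WithZero

noncomputable section

namespace Crest.Agent.X262.Form88

open Crest.Agent.X277 Crest.Agent.X277.Lef Crest.Agent.X277.AN.G1
open Crest.Agent.X277.Res.Log (On)
open Crest.Agent.X277.Link (IsPD pdiv Loc)
open Crest.Agent.X277.Cns (Un Ov KV)

variable {F L : Type} [Field F] [Algebra ℂ F] [Field L] [Algebra ℂ L] {W Y : PModel ℂ F}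
  {Q : PModel ℂ L} {f : F} {v : Valuation F ℤᵐ⁰}

/-! ### general points -/

theorem res_ev {φ : L} (h : φ ≠ 0) : ∀ᶠ q in residual (Pts Q), ev φ q ≠ 0 :=
  residual_of_dense_open (isOpen_ev_ne φ) (dense_ne Q h)

theorem res_reg (φ : L) : ∀ᶠ q in residual (Pts Q), φ ∈ (lp q).O := by
  by_cases h : φ = 0
  · exact Eventually.of_forall fun q => h ▸ zero_mem _
  · exact (res_ev h).mono fun q hq => LP.mem_of_ne hq

theorem res_exists {p : Pts Q → Prop} (h : ∀ᶠ q in residual (Pts Q), p q) {U : Set (Pts Q)}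
    (hU : IsOpen U) (h0 : U.Nonempty) : ∃ q ∈ U, p q := by
  obtain ⟨q, h1, h2⟩ := (dense_of_mem_residual h).exists_mem_open hU h0
  exact ⟨q, h2, h1⟩

variable (g : Mor Q W)

theorem res_pat {i : Fin (W.N + 1)} (h : ∀ j, W.y j / W.y i ∈ g.p.O) :
    ∀ᶠ q in residual (Pts Q), g.map q ∈ pat W i :=
  (eventually_all.2 fun j => res_reg (g.p.π (W.y j / W.y i))).mono fun _ hq =>
    g.map_mem_pat.2 fun j => ⟨h j, hq j⟩

/-- a function which is regular at one point of the image is regular at the general point -/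
theorem res_mem {x : Pts W} (hx : (lp x).O ≤ g.p.O)
    (hn : ∀ c ∈ (lp x).O, ev c x ≠ 0 → g.p.π c ≠ 0) (hf : f ∈ (lp x).O) :
    ∀ᶠ q in residual (Pts Q), f ∈ (lp (g.map q)).O := by
  obtain ⟨i, hi⟩ := exists_pat x
  obtain ⟨a, ha, c, hc, h0, h1⟩ := (mem_lp_iff hi).1 hf
  filter_upwards [res_pat g fun j => hx (y_mem hi j), res_ev (Q := Q) (hn c (A_le hi hc) h0)]
    with q h2 h3
  exact (mem_lp_iff h2).2 ⟨a, ha, c, hc, by rwa [g.ev_map (A_le h2 hc)], h1⟩

theorem π_ne {x : Pts W} (hx : (lp x).O ≤ g.p.O) {c : F} (h0 : ev c x ≠ 0) : g.p.π c ≠ 0 := by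
  intro h
  have h1 := g.p.π_mul (hx (LP.mem_of_ne h0)) (hx ((lp x).inv_mem h0))
  rw [mul_inv_cancel₀ (LP.ne_zero_of_ne h0), g.p.π_one, h, zero_mul] at h1
  exact one_ne_zero h1

theorem le_map (q : Pts Q) : (lp (g.map q)).O ≤ g.p.O := fun _ hf => g.mem_O hf

theorem res_mem' (q₀ : Pts Q) (hf : f ∈ (lp (g.map q₀)).O) :
    ∀ᶠ q in residual (Pts Q), f ∈ (lp (g.map q)).O :=
  res_mem g (le_map g q₀) (fun _ _ => π_ne g (le_map g q₀)) hf

theorem res_not_le {A : Set F} {q₀ : Pts Q} (h : ¬ ∀ f ∈ (lp (g.map q₀)).O, f ∈ A) :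
    ∀ᶠ q in residual (Pts Q), ¬ ∀ f ∈ (lp (g.map q)).O, f ∈ A := by
  push Not at h
  obtain ⟨f, h1, h2⟩ := h
  exact (res_mem' g q₀ h1).mono fun q hq h3 => h2 (h3 f hq)


/-- **the image of a morphism** -/
theorem mem_range {x : Pts W} (hx : (lp x).O ≤ g.p.O) : x ∈ range g.map := by
  have : (lp x).mx.IsPrime := RingHom.ker_isPrime _
  obtain ⟨V, h1, h2⟩ := Cns.exists_val
    ((g.p.hom.comp (Subalgebra.inclusion hx) : (lp x).O →ₐ[ℂ] L) : (lp x).O →+* L) (lp x).mx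
    fun a ha => by_contra fun h0 => π_ne g hx h0 ha
  have h3 : ∀ a ∈ (lp x).O, g.p.π a ∈ V := fun a ha => h1 ⟨a, ha⟩
  have h4 : ∀ a ∈ (lp x).O, Un V (g.p.π a) → ev a x ≠ 0 := fun a ha => (h2 ⟨a, ha⟩).1
  obtain ⟨q, hq⟩ := Cns.exists_ov Q (V := V) fun c => by
    rw [← g.p.π_alg]
    exact h3 _ (algebraMap_mem _ c)
  obtain ⟨i, hi⟩ := exists_pat (g.map q)
  obtain ⟨i', hi'⟩ := exists_pat x
  have h5 : ∀ a, ev a (g.map q) ≠ 0 → Un V (g.p.π a) := fun a ha =>
    hq.un (by rwa [← g.ev_map (LP.mem_of_ne ha)])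
  have h6 : x ∈ pat W i := by
    refine (mem_pat_iff hi').2 (h4 _ (y_mem hi' i) ?_)
    have h7 := g.p.π_mul (hx (y_mem hi' i)) (g.mem_O (y_mem hi i'))
    rw [div_mul_div_cancel₀ (W.y_ne i'), div_self (W.y_ne i), g.p.π_one] at h7
    refine ⟨left_ne_zero_of_mul_eq_one h7.symm, h3 _ (y_mem hi' i), ?_⟩
    rw [← eq_inv_of_mul_eq_one_right h7.symm]
    exact hq _ (g.π_mem (y_mem hi i'))
  refine ⟨q, pt_ext hi h6 fun j => by_contra fun hne => ?_⟩
  refine h4 (W.y j / W.y i - algebraMap ℂ F (ev (W.y j / W.y i) x))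
    (sub_mem (y_mem h6 j) (algebraMap_mem _ _)) (h5 _ ?_) ?_
  · unfold ev
    rw [LP.v_sub (y_mem hi j) (algebraMap_mem _ _), LP.v_alg]
    exact sub_ne_zero.2 hne
  · unfold ev
    rw [LP.v_sub (y_mem h6 j) (algebraMap_mem _ _), LP.v_alg, sub_self]


/-! ### purity -/

/-- **purity**: if every prime of `W` through `w` is a prime of `Y`, the local rings agree -/
theorem lp_le_of_pd {w : Pts W} {y : Pts Y} (hd : (lp y).Dom (lp w))
    (h : ∀ v, IsPD W v → On v w → IsPD Y v) : (lp w).O ≤ (lp y).O := by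
  intro f hf
  by_cases hf0 : f = 0
  · exact hf0 ▸ zero_mem _
  obtain ⟨b, hb⟩ := Link.exists_frAt (P := Y) (((pdiv Y).dz f) ⊓ 0) y
  have h1 : ∀ e : (pdiv Y).ι, On e.1 y → (pdiv Y).v e b = exp (min ((pdiv Y).dz f e) 0) :=
    fun e he => hb.eq e he
  have h2 : b ∈ (lp y).O := Link.mem_lp_iff_v.2 fun e he => by
    rw [h1 e he, ← exp_zero, exp_le_exp]
    exact min_le_right _ _
  have h3 : b * f ∈ (lp y).O := Link.mem_lp_iff_v.2 fun e he => by
    rw [map_mul, h1 e he, (pdiv Y).v_eq hf0, ← exp_add, ← exp_zero, exp_le_exp]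
    omega
  have h4 : ev b y ≠ 0 := fun h0 => by
    obtain ⟨e, h5, h6⟩ := (Link.ev_eq_zero_iff (hd.le h2) hb.ne).1 ((hd.eq b h2).trans h0)
    have h7 := h1 ⟨e.1, h e.1 e.2 h5⟩ fun z hz => h5 z (hd.le hz)
    have h8 := (pdiv Y).v_eq hf0 ⟨e.1, h e.1 e.2 h5⟩
    have h9 := h5 f hf
    change e.1 b = _ at h7
    change e.1 f = _ at h8
    change e.1 b < 1 at h6
    rw [h7, ← exp_zero, exp_lt_exp] at h6
    rw [h8, ← exp_zero, exp_le_exp] at h9
    omega
  have h5 := LP.div_mem h3 h4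
  rwa [mul_div_cancel_left₀ _ hb.ne] at h5

variable (W Y) in
/-- there are finitely many exceptional primes -/
theorem finite_exc : {v : Valuation F ℤᵐ⁰ | IsPD W v ∧ ¬ IsPD Y v}.Finite := by
  choose a ha c hc hc0 h using fun i j => Y.frac (W.y j / W.y i)
  refine ((finite_iUnion fun i => finite_iUnion fun j => Link.finite_isPD W (hc0 i j)).union
    (finite_iUnion fun j => Link.finite_isPD W (div_ne_zero (Y.y_ne j) (Y.y_ne 0)))).subset ?_
  rintro v ⟨hv, h1⟩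
  by_contra h2
  simp only [mem_union, mem_iUnion, mem_ofPred_eq, not_or, not_exists, not_and, not_not] at h2
  obtain ⟨i, hi⟩ := hv.loc
  have h3 : ∀ z ∈ Y.A 0, v z ≤ 1 := (Link.chart_le_iff Y hv.triv).2 fun j =>
    ((Link.v_div_eq (Y.y_ne 0)).1 (h2.2 j hv)).le
  have h4 : ∀ z ∈ W.A i, ∃ d ∈ Y.A 0, v d = 1 ∧ d * z ∈ Y.A 0 := by
    intro z hz
    refine Algebra.adjoin_induction (p := fun z _ => ∃ d ∈ Y.A 0, v d = 1 ∧ d * z ∈ Y.A 0)
      ?_ (fun r => ⟨1, one_mem _, map_one _, by simp⟩) ?_ ?_ hz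
    · rintro _ ⟨j, rfl⟩
      refine ⟨c i j, hc i j, h2.1 i j hv, ?_⟩
      change c i j * (W.y j / W.y i) ∈ _
      rw [h i j, mul_div_cancel₀ _ (hc0 i j)]
      exact ha i j
    · rintro z z' - - ⟨d, h5, h6, h7⟩ ⟨d', h8, h9, h10⟩
      refine ⟨d * d', mul_mem h5 h8, by rw [map_mul, h6, h9, one_mul], ?_⟩
      rw [show d * d' * (z + z') = d' * (d * z) + d * (d' * z') by ring]
      exact add_mem (mul_mem h8 h7) (mul_mem h5 h10)
    · rintro z z' - - ⟨d, h5, h6, h7⟩ ⟨d', h8, h9, h10⟩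
      refine ⟨d * d', mul_mem h5 h8, by rw [map_mul, h6, h9, one_mul], ?_⟩
      rw [show d * d' * (z * z') = d * z * (d' * z') by ring]
      exact mul_mem h7 h10
  refine h1 ⟨hv.nrm, 0, h3, fun f hf => ?_⟩
  obtain ⟨e, h5, h6, h7⟩ := hi.den f hf
  obtain ⟨d, h8, h9, h10⟩ := h4 e h5
  obtain ⟨d', h11, h12, h13⟩ := h4 _ h7
  refine ⟨d' * (d * e), mul_mem h11 h10, by rw [map_mul, map_mul, h12, h9, h6]; simp, ?_⟩
  rw [show d' * (d * e) * f = d * (d' * (e * f)) by ring]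
  exact mul_mem h8 h13

variable {μ : Mor W Y} (hμ : μ.p = Plc.ofHom (AlgHom.id ℂ F))
include hμ

theorem bir_dom (w : Pts W) : (lp (μ.map w)).Dom (lp w) :=
  ⟨fun _ hf => Cns.hom_mem hμ hf, fun _ hf => Cns.hom_ev hμ hf⟩



end Crest.Agent.X262.Form88
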