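import Crest.Agent.X262.Form88.Main
import Crest.Agent.X262.Hx56.Defs
import Crest.Agent.X262.Chn.Defs
import Crest.Agent.X262.Form88.Dom
import Crest.Agent.X262.Int23.Bcg

-- ▼ part X262/Form88/Out
section

/-!
# Row 262, FORM (helper88), part 6: the formal facts in the shape of their consumers

* `supK`, `plK`, `bir0S` : `Hx56.SupK`, `Hx56.PlK`, `Hx56.Bir0`;
* `frm` : `Chn.Frm`.
-/

set_option autoImplicit false

noncomputable section

namespace Crest.Agent.X262.Form88

open Crest.Agent.X277 Crest.Agent.X277.Lef Crest.Agent.X277.AN.G1 Crest.Agent.X277.BD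
open Crest.Agent.X262.Coh

variable {C : Th} (ax : C.Ax)
include ax

theorem supK : Hx56.SupK C := fun _ _ hμ hν hY y h => by
  rw [supp_itg ax.man ax.pd ax.dbl ax.bc1 hμ hν hY y h, map_zero]

theorem plK : Hx56.PlK C := fun _ _ ha _ _ h =>
  c1_mul_eq_zero ax.man ax.pd ax.pl0 ha fun G v _ => h G v

theorem bir0S (dom : Dom C) : Hx56.Bir0 C := fun _ hh _ _ hx => bir0 ax dom hh hx

theorem frm (dom : Dom C)
    (bc : ∀ {D X B : SV} (j : Hom D X) (a : BD ℂ X.F) (u : Hom B X), IsDv j a → ∀ x : C.H D,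
      (∀ (G : SV) (v : Hom G B) (w : Hom G D), (Mor.comp j w).map = (Mor.comp u v).map →
        C.pb w x = 0) → C.pb u (C.push j x) = 0) : Chn.Frm C where
  deg _ h := itg_pb ax.man ax.pd h
  van _ h _ _ ha := van_typ ax.man ax.typ dom h (Or.inl rfl) ha
  exc {K} _ _ {Q} {V} g W h1 h2 h3 p q hp a ha := by
    refine van_exc ax.man ax.typ dom (fun h => h2.ne_top ?_) (fun v h4 h5 => h3 ?_) (Or.inl hp) ha
    · obtain ⟨α, hα⟩ := dmn_of_surj h
      exact eq_top_iff.2 fun f _ => (h1 f).1 (hα ▸ Algebra.mem_top)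
    · have h6 : W = rz v h4.triv := Subtype.ext (SetLike.ext fun f => (h1 f).symm.trans (h5 f))
      exact h6 ▸ Geo.prm_of_isPD h4
  bc := bc
  fact h x hx := ⟨_, (fact1_pd (Chn.mor_p h) ax dom fun v E u h1 h2 h3 _ =>
    hx (rz v h1.triv) E u (Geo.prm_of_isPD h1) (mt (Geo.isPD_iff_prm h1.triv h1.nrm).2 h2) h3).symm⟩

end Crest.Agent.X262.Form88
end
end

-- ▼ part X262/Form88/All

/-!
# Row 262, FORM (helper88), part 8: the formal facts from `C.Ax` alone
-/

set_option autoImplicit false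

namespace Crest.Agent.X262.Form88

open Crest.Agent.X262.Coh

variable {C : Th} (ax : C.Ax)
include ax

theorem domS : Hx56.DomS C := dom ax.man ax.pd

theorem bir0_of : Hx56.Bir0 C := bir0S ax (dom ax.man ax.pd)

theorem frm_of : Chn.Frm C := frm ax (dom ax.man ax.pd) (Int23.bc_zero ax)

end Crest.Agent.X262.Form88
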